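import Vale.Agent.P049.TS.Ramanujan
import Vale.Agent.P049.TS.RamanujanOf
import Vale.Agent.P049.TS.MainT

/-! For every `d ≥ 3` there is a deterministic polynomial time construction of simple `d`-regular
Ramanujan graphs on every sufficiently large order `n` with `d n` even. -/

namespace Vale.Agent.Results.P049.RamanujanAllOrders

open Vale.Agent.P049

theorem result (d : ℕ) (hd : 3 ≤ d) :
    ∃ f : ℕ → List Bool,
      (∃ M : Turing.TM2ComputableInPolyTime (fun n : ℕ => List.replicate n true)
        (id : List Bool → List Bool) f, ∀ k, Finite (M.tm.Γ k)) ∧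
      ∃ n₀ : ℕ, ∀ n : ℕ, n₀ ≤ n → Even (d * n) →
        ∃ (G : SimpleGraph (Fin n)) (_ : DecidableRel G.Adj),
          IsRamanujan d G ∧
          f n = (List.ofFn fun i : Fin n => List.ofFn fun j : Fin n =>
            decide (G.Adj i j)).flatten := by
  obtain ⟨f, hf, n₀, h⟩ := TS.mainT d hd
  refine ⟨f, hf, n₀, fun n hn he => ?_⟩
  obtain ⟨G, hG, h1, h2⟩ := h n hn he
  exact ⟨G, hG, h1.isRamanujan, h2⟩

end Vale.Agent.Results.P049.RamanujanAllOrders
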