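import Vale.Agent.P049.TS.MainT
import Vale.Agent.P049.H744.Robust
import Vale.Agent.P049.H408.Final

/-! Ramanujan graphs of every degree `d ≥ 3` and every large order in polynomial time, with
polynomially many edges that may be rewired arbitrarily. -/

open Matrix Finset

theorem Vale.Agent.Results.P049.RobustRamanujan.result (d : ℕ) (hd : 3 ≤ d) :
    (∃ f : ℕ → List Bool,
      (∃ M : Turing.TM2ComputableInPolyTime (fun n : ℕ => List.replicate n true)
        (id : List Bool → List Bool) f, ∀ k, Finite (M.tm.Γ k)) ∧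
      ∃ n₀ : ℕ, ∀ n : ℕ, n₀ ≤ n → Even (d * n) →
        ∃ (G : SimpleGraph (Fin n)) (_ : DecidableRel G.Adj),
          f n = (List.ofFn fun i : Fin n => List.ofFn fun j : Fin n =>
            decide (G.Adj i j)).flatten ∧
          G.IsRegularOfDegree d ∧
          ∀ (μ : ℝ) (v : Fin n → ℝ), v ≠ 0 → ∑ i, v i = 0 → G.adjMatrix ℝ *ᵥ v = μ • v →
            |μ| ≤ 2 * √((d : ℝ) - 1)) ∧
    (∃ f h : ℕ → List Bool,
      (∃ M : Turing.TM2ComputableInPolyTime (fun n : ℕ => List.replicate n true)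
        (id : List Bool → List Bool) f, ∀ k, Finite (M.tm.Γ k)) ∧
      (∃ M : Turing.TM2ComputableInPolyTime (fun n : ℕ => List.replicate n true)
        (id : List Bool → List Bool) h, ∀ k, Finite (M.tm.Γ k)) ∧
      ∃ n₀ : ℕ, ∀ n : ℕ, n₀ ≤ n → Even (d * n) →
        ∃ (G H : SimpleGraph (Fin n)) (_ : DecidableRel G.Adj) (_ : DecidableRel H.Adj),
          f n = (List.ofFn fun i : Fin n => List.ofFn fun j : Fin n =>
            decide (G.Adj i j)).flatten ∧
          h n = (List.ofFn fun i : Fin n => List.ofFn fun j : Fin n =>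
            decide (H.Adj i j)).flatten ∧
          G.IsRegularOfDegree d ∧ H ≤ G ∧ n ≤ (#G.edgeFinset - #H.edgeFinset) ^ 3 ∧
          ∀ (G' : SimpleGraph (Fin n)) [DecidableRel G'.Adj], G'.IsRegularOfDegree d → H ≤ G' →
            (∀ (μ : ℝ) (v : Fin n → ℝ), v ≠ 0 → ∑ i, v i = 0 → G'.adjMatrix ℝ *ᵥ v = μ • v →
              |μ| ≤ 2 * √((d : ℝ) - 1)) ∧
            (∀ S T : Finset (Fin n), |(#(G'.interedges S T) : ℝ) - d * #S * #T / n| ≤
              2 * √((d : ℝ) - 1) * (√(#S - (#S : ℝ) ^ 2 / n) * √(#T - (#T : ℝ) ^ 2 / n))) ∧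
            (∀ (k : ℕ) (x y : Fin n),
              |({p : G'.Walk x y | p.length = k}.ncard : ℝ) - (d : ℝ) ^ k / n| ≤
                (2 * √((d : ℝ) - 1)) ^ k * (1 - 1 / n))) := by
  have hpos : ∀ n : ℕ, 1 ≤ n → Nonempty (Fin n) := fun n hn => ⟨⟨0, hn⟩⟩
  refine ⟨?_, ?_⟩
  · obtain ⟨f, hf, n₁, h⟩ := Vale.Agent.P049.TS.mainT d hd
    refine ⟨f, hf, max n₁ 1, fun n hn he => ?_⟩
    have := hpos n ((le_max_right _ _).trans hn)
    obtain ⟨G, hG, h1, h2⟩ := h n ((le_max_left _ _).trans hn) he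
    exact ⟨G, hG, h2, h1.1, fun μ v => Vale.Agent.P049.H408.eigen_ram h1 μ v⟩
  · obtain ⟨f, h, hf, hh, n₁, hm⟩ := Vale.Agent.P049.TS.robust d hd
    refine ⟨f, h, hf, hh, max n₁ 1, fun n hn he => ?_⟩
    have := hpos n ((le_max_right _ _).trans hn)
    obtain ⟨G, H, hG, hH, h1, h2, h3, h4, h5, h6⟩ := hm n ((le_max_left _ _).trans hn) he
    refine ⟨G, H, hG, hH, h4, h5, h1, h2, h3, fun G' hG' hreg hle => ?_⟩
    have h7 := h6 G' hreg hle
    exact ⟨fun μ v => Vale.Agent.P049.H408.eigen_ram h7 μ v,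
      fun S T => Vale.Agent.P049.H408.mixing_ram h7 S T,
      fun k x y => Vale.Agent.P049.H408.walks_ram h7 k x y⟩
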